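import Mathlib
import Vale.Agent.Lib.P248.helper1.ConeAux

/-!
# P248 (helper59): the shear preimage of the slab model lies in the polar of the cone

Spare copy of the pool leaf CQC1: pure algebra with inner products.
-/

namespace Vale.Agent.Lib.P248.H59

open MeasureTheory Set
open scoped ENNReal
open Vale.Agent.Lib.P227 Vale.Agent.Lib.P248.H1

theorem shear_preimage_subset_polar {n : ℕ} (D : Set (EuclideanSpace ℝ (Fin n)))
    (c ζ : EuclideanSpace ℝ (Fin n)) (h τ : ℝ) (hh : 0 < h) (hτ0 : 0 < τ) (hτ1 : τ < 1) :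
    shear (c - ζ) h ⁻¹' polarModel D ζ τ ⊆
      polarAt (coneE D c h) (ecomb (τ * h) ((1 - τ) • ζ + τ • c)) := by
  intro y hy
  have hy' : shear (c - ζ) h y ∈ polarModel D ζ τ := hy
  obtain ⟨_, h2, h3⟩ := hy'
  have e0 : shear (c - ζ) h y 0 = h * y 0 + inner ℝ (c - ζ) (etail y) := by
    show ecomb (h * y 0 + inner ℝ (c - ζ) (etail y)) (etail y) 0 = _
    rw [ecomb_zero]
  have e1 : etail (shear (c - ζ) h y) = etail y := by
    show etail (ecomb (h * y 0 + inner ℝ (c - ζ) (etail y)) (etail y)) = _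
    rw [etail_ecomb]
  rw [e0] at h2
  have h1τ : 0 < 1 - τ := by linarith
  have hσle : (1 - τ) * (h * y 0 + inner ℝ (c - ζ) (etail y)) ≤ 1 := by
    rw [le_div_iff₀ h1τ] at h2
    linarith
  intro x hx
  obtain ⟨d, hd, r, hr0, hr1, rfl⟩ := hx
  have h3d := h3 d hd
  rw [e0, e1] at h3d
  have hxz : ecomb (r * h) ((1 - r) • d + r • c) - ecomb (τ * h) ((1 - τ) • ζ + τ • c)
      = ecomb ((r - τ) * h) ((1 - r) • (d - ζ) + (r - τ) • (c - ζ)) := by
    ext i
    refine Fin.cases ?_ (fun j => ?_) i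
    · simp only [PiLp.sub_apply, ecomb_zero]
      ring
    · simp only [PiLp.sub_apply, ecomb_succ, PiLp.add_apply, PiLp.smul_apply, smul_eq_mul]
      ring
  have key : inner ℝ (ecomb ((r - τ) * h) ((1 - r) • (d - ζ) + (r - τ) • (c - ζ)))
      (ecomb (y 0) (etail y))
      = (r - τ) * (h * y 0 + inner ℝ (c - ζ) (etail y))
        + (1 - r) * inner ℝ (d - ζ) (etail y) := by
    rw [inner_ecomb, inner_add_left, real_inner_smul_left, real_inner_smul_left]
    ring
  rw [hxz, ← ecomb_eta y, key]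
  have hm : (1 - r) * inner ℝ (d - ζ) (etail y)
      ≤ (1 - r) * (1 + τ * (h * y 0 + inner ℝ (c - ζ) (etail y))) :=
    mul_le_mul_of_nonneg_left h3d (by linarith)
  have hr : 0 ≤ r * (1 - (1 - τ) * (h * y 0 + inner ℝ (c - ζ) (etail y))) :=
    mul_nonneg hr0 (by linarith)
  nlinarith [hm, hr]

end Vale.Agent.Lib.P248.H59
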